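import Crest.Agent.Helper26.PL.Multi

/-!
# Prékopa–Leindler: set-restricted Bochner-integral forms

Helper library for row 82 (package (P)), corollaries of `Crest.Agent.Helper26.PL.Multi`.
-/

set_option autoImplicit false
open MeasureTheory Set
open scoped ENNReal NNReal

namespace Crest.Agent.Helper26.PL

/-- Set-restricted Bochner-integral form of the midpoint Prékopa–Leindler inequality:
`A B C` measurable with `(A + B) / 2 ⊆ C`, `f, g, h` measurable, nonnegative on `A, B, C`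
respectively, `h` integrable on `C`, and `f x * g y ≤ h ((x + y) / 2) ^ 2` for `x ∈ A`, `y ∈ B`.
Then `(∫_A f) * (∫_B g) ≤ (∫_C h) ^ 2`. -/
theorem prekopa_leindler_inner_set_integral {E : Type*} [NormedAddCommGroup E]
    [InnerProductSpace ℝ E] [FiniteDimensional ℝ E] [MeasurableSpace E] [BorelSpace E]
    {A B C : Set E} (hA : MeasurableSet A) (hB : MeasurableSet B) (hC : MeasurableSet C)
    (f g h : E → ℝ) (hf : Measurable f) (hg : Measurable g) (hh : Measurable h)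
    (hhi : IntegrableOn h C) (hf0 : ∀ x ∈ A, 0 ≤ f x) (hg0 : ∀ y ∈ B, 0 ≤ g y)
    (hh0 : ∀ z ∈ C, 0 ≤ h z) (hABC : ∀ x ∈ A, ∀ y ∈ B, (1 / 2 : ℝ) • (x + y) ∈ C)
    (H : ∀ x ∈ A, ∀ y ∈ B, f x * g y ≤ h ((1 / 2 : ℝ) • (x + y)) ^ 2) :
    (∫ x in A, f x) * (∫ y in B, g y) ≤ (∫ z in C, h z) ^ 2 := by
  rw [← integral_indicator hA, ← integral_indicator hB, ← integral_indicator hC]
  refine prekopa_leindler_inner_integral _ _ _ (hf.indicator hA) (hg.indicator hB)
    (hh.indicator hC) ((integrable_indicator_iff hC).mpr hhi)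
    (fun x => indicator_nonneg hf0 x) (fun y => indicator_nonneg hg0 y)
    (fun z => indicator_nonneg hh0 z) (fun x y => ?_)
  by_cases hx : x ∈ A
  · by_cases hy : y ∈ B
    · rw [indicator_of_mem hx, indicator_of_mem hy, indicator_of_mem (hABC x hx y hy)]
      exact H x hx y hy
    · rw [indicator_of_notMem hy, mul_zero]; positivity
  · rw [indicator_of_notMem hx, zero_mul]; positivity

/-- Square-root form of `prekopa_leindler_inner_set_integral`:
`√((∫_A f) * (∫_B g)) ≤ ∫_C h`. -/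
theorem sqrt_mul_le_of_prekopa_leindler {E : Type*} [NormedAddCommGroup E]
    [InnerProductSpace ℝ E] [FiniteDimensional ℝ E] [MeasurableSpace E] [BorelSpace E]
    {A B C : Set E} (hA : MeasurableSet A) (hB : MeasurableSet B) (hC : MeasurableSet C)
    (f g h : E → ℝ) (hf : Measurable f) (hg : Measurable g) (hh : Measurable h)
    (hhi : IntegrableOn h C) (hf0 : ∀ x ∈ A, 0 ≤ f x) (hg0 : ∀ y ∈ B, 0 ≤ g y)
    (hh0 : ∀ z ∈ C, 0 ≤ h z) (hABC : ∀ x ∈ A, ∀ y ∈ B, (1 / 2 : ℝ) • (x + y) ∈ C)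
    (H : ∀ x ∈ A, ∀ y ∈ B, f x * g y ≤ h ((1 / 2 : ℝ) • (x + y)) ^ 2) :
    Real.sqrt ((∫ x in A, f x) * (∫ y in B, g y)) ≤ ∫ z in C, h z := by
  have key := prekopa_leindler_inner_set_integral hA hB hC f g h hf hg hh hhi hf0 hg0 hh0 hABC H
  have h0 : 0 ≤ ∫ z in C, h z := setIntegral_nonneg hC hh0
  calc Real.sqrt ((∫ x in A, f x) * (∫ y in B, g y))
      ≤ Real.sqrt ((∫ z in C, h z) ^ 2) := Real.sqrt_le_sqrt key
    _ = ∫ z in C, h z := Real.sqrt_sq h0

/-- Pointwise hypothesis of Prékopa–Leindler from midpoint "concavity" and AM–GM: if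
`(f x + g y) / 2 ≤ h ((x + y) / 2)` with `f x, g y ≥ 0`, then `f x * g y ≤ h ((x + y) / 2) ^ 2`. -/
theorem mul_le_sq_of_add_div_two_le {a b c : ℝ} (ha : 0 ≤ a) (hb : 0 ≤ b)
    (h : (a + b) / 2 ≤ c) : a * b ≤ c ^ 2 := by
  have hc : 0 ≤ c := le_trans (by positivity) h
  nlinarith [sq_nonneg (a - b), mul_self_le_mul_self (by positivity : 0 ≤ (a + b) / 2) h]

end Crest.Agent.Helper26.PL
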